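import Vale.Agent.P356.Main

/-!
# P356: gapped ground states in two dimensions have entropy strictly below the maximal volume law
-/

namespace Vale.Agent.Results.P356.VolumeLawDefect

open Vale.Agent.P356

/-- For all `q, R, J, Δ` there are `θ < 1` and `C` such that the entropy of every region in every
gapped ground state is at most `θ |A| log q + C |∂A|`. -/
theorem result :
    ∀ (q R : ℕ), 2 ≤ q → ∀ (J Δ : ℝ), 0 < J → 0 < Δ →
      ∃ θ C : ℝ, 0 ≤ θ ∧ θ < 1 ∧ 0 ≤ C ∧
        ∀ (L : ℕ) (h : Finset (Site L) → Matrix (Config L q) (Config L q) ℂ)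
          (Ω : Config L q → ℂ), Admissible R J h → HasGap (∑ X, h X) Ω Δ →
          ∀ A : Finset (Site L),
            entropy Ω A ≤ θ * (A.card * Real.log q) + C * edgeBoundary A :=
  fun q R hq J Δ hJ hΔ => volume_defect q R hq J Δ hJ hΔ

end Vale.Agent.Results.P356.VolumeLawDefect
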